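import Vale.Agent.P109.Spectral.Step.Conc

/-!
P109: arithmetic of the eigenvalue groups of the stages.
-/

namespace Vale.Agent.P109.Spectral

noncomputable section

/-- the point `1 / q` of the circle -/
def unitFrac (q : ℕ) : UnitAddCircle := (((1 : ℝ) / q : ℝ) : UnitAddCircle)

theorem zsmul_unitFrac (q : ℕ) (k : ℤ) :
    k • unitFrac q = (((k : ℝ) / q : ℝ) : UnitAddCircle) := by
  rw [unitFrac, ← QuotientAddGroup.mk_zsmul, zsmul_eq_mul, mul_one_div]

theorem nsmul_unitFrac_self {q : ℕ} (hq : 0 < q) : q • unitFrac q = 0 := by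
  rw [unitFrac, smul_coe_div q hq 1]
  simp

theorem exists_eq_zsmul_of_nsmul {q : ℕ} (hq : 0 < q) {u : UnitAddCircle} (h : q • u = 0) :
    ∃ k : ℤ, u = k • unitFrac q := by
  obtain ⟨t, rfl⟩ : ∃ t : ℝ, (t : UnitAddCircle) = u := ⟨frac u, coe_frac u⟩
  rw [← QuotientAddGroup.mk_nsmul, AddCircle.coe_eq_zero_iff] at h
  obtain ⟨k, hk⟩ := h
  refine ⟨k, ?_⟩
  rw [zsmul_unitFrac]
  simp only [zsmul_eq_mul, mul_one, nsmul_eq_mul] at hk
  rw [hk, mul_div_cancel_left₀]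
  exact_mod_cast hq.ne'

theorem dvd_of_zsmul_eq_zero {q : ℕ} (hq : 0 < q) {k : ℤ} (h : k • unitFrac q = 0) :
    (q : ℤ) ∣ k := by
  rw [zsmul_unitFrac, AddCircle.coe_eq_zero_iff] at h
  obtain ⟨j, hj⟩ := h
  refine ⟨j, ?_⟩
  simp only [zsmul_eq_mul, mul_one] at hj
  rw [eq_div_iff (by exact_mod_cast hq.ne')] at hj
  have : ((j * q : ℤ) : ℝ) = (k : ℝ) := by push_cast; exact hj
  rw [mul_comm]
  exact_mod_cast this.symm

theorem unitFrac_of_dvd {q q' : ℕ} (h : q ∣ q') (hq' : 0 < q') :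
    unitFrac q = ((q' / q : ℕ) : ℤ) • unitFrac q' := by
  obtain ⟨r, rfl⟩ := h
  have hq : 0 < q := Nat.pos_of_ne_zero fun e => by simp [e] at hq'
  have hr : (r : ℝ) ≠ 0 := by
    exact_mod_cast (Nat.pos_of_ne_zero fun e => by simp [e] at hq').ne'
  rw [zsmul_unitFrac, unitFrac, Nat.mul_div_cancel_left _ hq]
  congr 1
  push_cast
  rw [mul_comm (q : ℝ), div_mul_cancel_left₀ hr, one_div]

theorem unitFrac_lcm_mem {S : AddSubgroup UnitAddCircle} {a b : ℕ} (ha : 0 < a) (hb : 0 < b)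
    (h1 : unitFrac a ∈ S) (h2 : unitFrac b ∈ S) : unitFrac (Nat.lcm a b) ∈ S := by
  have h : unitFrac (Nat.lcm a b) =
      (Nat.gcdA a b) • unitFrac b + (Nat.gcdB a b) • unitFrac a := by
    rw [zsmul_unitFrac, zsmul_unitFrac, ← QuotientAddGroup.mk_add, unitFrac]
    congr 1
    have hg : (Nat.gcd a b : ℝ) = a * (Nat.gcdA a b : ℤ) + b * (Nat.gcdB a b : ℤ) := by
      exact_mod_cast Nat.gcd_eq_gcd_ab a b
    have hl : (Nat.gcd a b : ℝ) * (Nat.lcm a b : ℝ) = a * b := by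
      exact_mod_cast Nat.gcd_mul_lcm a b
    have ha' : (a : ℝ) ≠ 0 := by exact_mod_cast ha.ne'
    have hb' : (b : ℝ) ≠ 0 := by exact_mod_cast hb.ne'
    have hl' : (Nat.lcm a b : ℝ) ≠ 0 := by exact_mod_cast (Nat.lcm_pos ha hb).ne'
    field_simp
    linear_combination -hl + (Nat.lcm a b : ℝ) * hg
  rw [h]
  exact add_mem (zsmul_mem h2 _) (zsmul_mem h1 _)

/-- finite order -/
def Tors (x : UnitAddCircle) : Prop := ∃ n : ℕ, 0 < n ∧ n • x = 0

theorem tors_zsmul_unitFrac {q : ℕ} (hq : 0 < q) (l : ℤ) : Tors (l • unitFrac q) :=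
  ⟨q, hq, by rw [← natCast_zsmul, smul_comm, natCast_zsmul, nsmul_unitFrac_self hq, smul_zero]⟩

theorem Tors.sub {x y : UnitAddCircle} (hx : Tors x) (hy : Tors y) : Tors (x - y) := by
  obtain ⟨n, hn, hx⟩ := hx
  obtain ⟨m, hm, hy⟩ := hy
  exact ⟨n * m, Nat.mul_pos hn hm, by
    rw [smul_sub, mul_comm n m, mul_smul, hx, smul_zero, zero_sub, mul_comm m n, mul_smul, hy,
      smul_zero, neg_zero]⟩

theorem exists_order {S : AddSubgroup UnitAddCircle} {x : UnitAddCircle} (hxS : x ∈ S)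
    (hx : Tors x) :
    ∃ N : ℕ, 0 < N ∧ unitFrac N ∈ S ∧ (∃ k : ℤ, x = k • unitFrac N) ∧ addOrderOf x = N := by
  obtain ⟨n, hn, hnx⟩ := hx
  have hfin : IsOfFinAddOrder x := isOfFinAddOrder_iff_nsmul_eq_zero.2 ⟨n, hn, hnx⟩
  have hN := hfin.addOrderOf_pos
  obtain ⟨m, hm, -, hmx⟩ := AddCircle.exists_gcd_eq_one_of_isOfFinAddOrder hfin
  have e : (m : ℤ) • unitFrac (addOrderOf x) = x := by
    rw [zsmul_unitFrac]
    conv_rhs => rw [← hmx]
    simp
  refine ⟨addOrderOf x, hN, ?_, ⟨m, e.symm⟩, rfl⟩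
  have h : (Nat.gcdA m (addOrderOf x)) • x = unitFrac (addOrderOf x) := by
    have hg : (m : ℤ) * Nat.gcdA m (addOrderOf x) + (addOrderOf x : ℤ) * Nat.gcdB m (addOrderOf x)
        = 1 := by
      rw [← Nat.gcd_eq_gcd_ab, hm]; rfl
    conv_rhs => rw [← one_smul ℤ (unitFrac (addOrderOf x)), ← hg]
    rw [add_smul, mul_smul, mul_smul, smul_comm (m : ℤ), e,
      smul_comm (addOrderOf x : ℤ), natCast_zsmul (unitFrac (addOrderOf x)),
      nsmul_unitFrac_self hN, smul_zero, add_zero]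
  rw [← h]
  exact zsmul_mem hxS _

/-- a common denominator of finitely many denominators in a group -/
theorem exists_common {S : AddSubgroup UnitAddCircle} (s : Finset ℕ)
    (hs : ∀ k ∈ s, 0 < k ∧ unitFrac k ∈ S) :
    ∃ L, 0 < L ∧ unitFrac L ∈ S ∧ ∀ k ∈ s, k ∣ L := by
  classical
  induction s using Finset.induction with
  | empty => exact ⟨1, one_pos, by simp [unitFrac, AddCircle.coe_period], by simp⟩
  | insert k s hk ih =>
    obtain ⟨L, hL, hLS, hdvd⟩ := ih fun j hj => hs j (Finset.mem_insert_of_mem hj)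
    obtain ⟨hk0, hkS⟩ := hs k (Finset.mem_insert_self k s)
    exact ⟨Nat.lcm k L, Nat.lcm_pos hk0 hL, unitFrac_lcm_mem hk0 hL hkS hLS, fun j hj =>
      (Finset.mem_insert.1 hj).elim (fun e => e ▸ Nat.dvd_lcm_left k L)
        fun h => (hdvd j h).trans (Nat.dvd_lcm_right k L)⟩

theorem mult_of_dvd {N L : ℕ} (h : N ∣ L) (hL : 0 < L) {x : UnitAddCircle} {k : ℤ}
    (hx : x = k • unitFrac N) : ∃ l : ℤ, x = l • unitFrac L :=
  ⟨k * ((L / N : ℕ) : ℤ), by rw [hx, mul_smul, ← unitFrac_of_dvd h hL]⟩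

/-! ### combinations of a stage -/

variable {d : ℕ}

/-- integer combinations of the eigenvalues of a stage -/
def Stage.comb (σ : Stage d) : (Fin d → ℤ) × ℤ →+ UnitAddCircle where
  toFun p := (∑ i, p.1 i • (σ.β i : UnitAddCircle)) + p.2 • unitFrac σ.q
  map_zero' := by simp
  map_add' p p' := by
    simp only [Prod.fst_add, Prod.snd_add, Pi.add_apply, add_smul, Finset.sum_add_distrib]
    abel

theorem Stage.comb_apply (σ : Stage d) (c : Fin d → ℤ) (l : ℤ) :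
    σ.comb (c, l) = (∑ i, c i • (σ.β i : UnitAddCircle)) + l • unitFrac σ.q := rfl

theorem Stage.comb_single (σ : Stage d) (i : Fin d) :
    σ.comb (Pi.single i 1, 0) = (σ.β i : UnitAddCircle) := by
  classical
  simp [Stage.comb_apply, Pi.single_apply, ite_smul]

theorem Stage.comb_none (σ : Stage d) : σ.comb (0, 1) = unitFrac σ.q := by
  simp [Stage.comb_apply]

theorem Stage.grp_eq (σ : Stage d) : σ.grp = σ.comb.range := by
  refine le_antisymm ((AddSubgroup.closure_le _).2 ?_) ?_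
  · rintro x (⟨i, rfl⟩ | rfl)
    · exact ⟨_, σ.comb_single i⟩
    · exact ⟨_, σ.comb_none⟩
  · rintro _ ⟨⟨c, l⟩, rfl⟩
    have hb : ∀ i, (σ.β i : UnitAddCircle) ∈ σ.grp := fun i =>
      AddSubgroup.subset_closure (Or.inl (Set.mem_range_self i))
    have hu : unitFrac σ.q ∈ σ.grp := AddSubgroup.subset_closure (Or.inr rfl)
    exact add_mem (sum_mem fun i _ => zsmul_mem (hb i) _) (zsmul_mem hu _)

theorem Stage.comb_mem (σ : Stage d) (p : (Fin d → ℤ) × ℤ) : σ.comb p ∈ σ.grp := by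
  rw [σ.grp_eq]; exact ⟨p, rfl⟩

theorem Stage.beta_mem (σ : Stage d) (i : Fin d) : (σ.β i : UnitAddCircle) ∈ σ.grp :=
  σ.comb_single i ▸ σ.comb_mem _

theorem Stage.frac_mem_grp (σ : Stage d) : unitFrac σ.q ∈ σ.grp := σ.comb_none ▸ σ.comb_mem _

theorem Stage.comb_eq_zero (σ : Stage d) {c : Fin d → ℤ} {l : ℤ} (h : σ.comb (c, l) = 0) :
    c = 0 ∧ (σ.q : ℤ) ∣ l := by
  have hc : c = 0 := by
    have h0 := h
    rw [Stage.comb_apply, unitFrac, ← coe_comb, AddCircle.coe_eq_zero_iff] at h0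
    obtain ⟨j, hj⟩ := h0
    simp only [zsmul_eq_mul, mul_one] at hj
    have hqr : (σ.q : ℝ) ≠ 0 := by exact_mod_cast σ.q_pos.ne'
    have h0 := σ.indep (fun k => (σ.q : ℤ) * c k) ((σ.q : ℤ) * j - l) (by
      push_cast
      rw [Finset.sum_congr rfl (fun k _ => mul_assoc (σ.q : ℝ) (c k : ℝ) (σ.β k)), ← Finset.mul_sum,
        hj, mul_add, mul_div_cancel₀ _ hqr]
      ring)
    funext k
    have := congrFun h0 k
    simpa [σ.q_pos.ne'] using this
  subst hc
  refine ⟨rfl, dvd_of_zsmul_eq_zero σ.q_pos ?_⟩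
  simpa [Stage.comb_apply] using h

theorem Stage.comb_eq_comb (σ : Stage d) {p p' : (Fin d → ℤ) × ℤ} (h : σ.comb p = σ.comb p') :
    p.1 = p'.1 ∧ (σ.q : ℤ) ∣ p.2 - p'.2 := by
  have h0 : σ.comb (p.1 - p'.1, p.2 - p'.2) = 0 := by
    rw [show ((p.1 - p'.1, p.2 - p'.2) : (Fin d → ℤ) × ℤ) = p - p' from rfl, map_sub, h, sub_self]
  exact ⟨sub_eq_zero.1 (σ.comb_eq_zero h0).1, (σ.comb_eq_zero h0).2⟩

theorem Stage.tors_grp (σ : Stage d) {x : UnitAddCircle} (hx : x ∈ σ.grp) (ht : Tors x) :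
    ∃ l : ℤ, x = l • unitFrac σ.q := by
  obtain ⟨n, hn, hnx⟩ := ht
  rw [σ.grp_eq] at hx
  obtain ⟨⟨c, l⟩, rfl⟩ := hx
  rw [← map_nsmul] at hnx
  have hc : c = 0 := by
    have := (σ.comb_eq_zero (c := n • c) (l := n • l) hnx).1
    funext i
    simpa [hn.ne'] using congrFun this i
  exact ⟨l, by simp [Stage.comb_apply, hc]⟩

/-- a basis of a group lying finitely above the group of a stage -/
theorem Stage.exists_basis (σ : Stage d) (G : AddSubgroup UnitAddCircle) (hG : σ.grp ≤ G)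
    (N : ℕ) (hN : 0 < N) (hNG : ∀ x ∈ G, N • x ∈ σ.grp)
    (htor : ∀ x ∈ G, Tors x → ∃ l : ℤ, x = l • unitFrac σ.q) :
    ∃ β : Fin d → ℝ,
      (∀ (c : Fin d → ℤ) (k : ℤ), ∑ i, (c i : ℝ) * β i = (k : ℝ) → c = 0) ∧
      (∀ i, (β i : UnitAddCircle) ∈ G) ∧
      ∀ x ∈ G, ∃ (n : Fin d → ℤ) (e : ℤ),
        x = (∑ k, n k • (β k : UnitAddCircle)) + e • unitFrac σ.q := by
  let L : Submodule ℤ (Fin d → ℤ) :=
    { carrier := {c | ∃ x ∈ G, ∃ l : ℤ, N • x = σ.comb (c, l)}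
      add_mem' := by
        rintro c c' ⟨x, hx, l, h⟩ ⟨x', hx', l', h'⟩
        exact ⟨x + x', add_mem hx hx', l + l', by rw [smul_add, h, h', ← map_add]; rfl⟩
      zero_mem' := ⟨0, zero_mem _, 0, by
        rw [smul_zero, show ((0 : Fin d → ℤ), (0 : ℤ)) = 0 from rfl, map_zero]⟩
      smul_mem' := by
        rintro k c ⟨x, hx, l, h⟩
        exact ⟨k • x, zsmul_mem hx k, k • l, by rw [smul_comm, h, ← map_zsmul]; rfl⟩ }
  have hmem : ∀ c : Fin d → ℤ, (N : ℤ) • c ∈ L := fun c =>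
    ⟨σ.comb (c, 0), hG (σ.comb_mem _), 0, by
      rw [← map_nsmul]
      exact congrArg σ.comb (Prod.ext (natCast_zsmul c N).symm (smul_zero N))⟩
  have hrank : Module.finrank ℤ L = d := by
    refine le_antisymm ((Submodule.finrank_le L).trans_eq (by simp)) ?_
    have h := LinearMap.finrank_le_finrank_of_injective
      (f := ((N : ℤ) • (LinearMap.id : (Fin d → ℤ) →ₗ[ℤ] (Fin d → ℤ))).codRestrict L hmem) (by
        intro a b hab
        have e := congrArg Subtype.val hab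
        simp only [LinearMap.codRestrict_apply, LinearMap.smul_apply, LinearMap.id_coe, id_eq] at e
        funext i
        have := congrFun e i
        simp only [Pi.smul_apply, smul_eq_mul] at this
        exact mul_left_cancel₀ (by exact_mod_cast hN.ne') this)
    simpa using h
  let B := Module.finBasisOfFinrankEq ℤ L hrank
  choose y hyG l hyl using fun k => (B k).2
  refine ⟨fun k => frac (y k), fun c k hck => ?_, fun i => by rw [coe_frac]; exact hyG i, fun x hx => ?_⟩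
  · have h0 : ∑ i, c i • y i = 0 := by
      have e := congrArg (fun t : ℝ => (t : UnitAddCircle)) hck
      simp only [coe_int] at e
      rw [← e]
      have := coe_comb c 0 (fun i => frac (y i)) 1
      simp only [coe_frac, Int.cast_zero, zero_div, add_zero, zero_smul] at this
      exact this.symm
    have h1 : σ.comb (∑ i, c i • ((B i : Fin d → ℤ)), ∑ i, c i • l i) = 0 := by
      have : N • ∑ i, c i • y i = ∑ i, c i • σ.comb ((B i : Fin d → ℤ), l i) := by
        rw [Finset.smul_sum]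
        exact Finset.sum_congr rfl fun i _ => by rw [smul_comm, hyl]
      rw [h0, smul_zero] at this
      rw [this]
      simp only [← map_zsmul, ← map_sum]
      congr 1
      exact Prod.ext (by simp [Prod.fst_sum]) (by simp [Prod.snd_sum])
    have h2 : ∑ i, c i • B i = 0 := Subtype.ext (by simpa using (σ.comb_eq_zero h1).1)
    exact funext fun i => linearIndependent_iff'.1 B.linearIndependent Finset.univ c h2 i (Finset.mem_univ i)
  · have hNx := hNG x hx
    rw [σ.grp_eq] at hNx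
    obtain ⟨⟨c, m⟩, hm⟩ := hNx
    let cc : L := ⟨c, x, hx, m, hm.symm⟩
    set n : Fin d → ℤ := fun k => B.repr cc k
    have hc : ∑ k, n k • ((B k : Fin d → ℤ)) = c := by
      have h := congrArg Subtype.val (B.sum_repr cc)
      simpa only [Submodule.coe_sum, SetLike.val_smul] using h
    have ht : Tors (x - ∑ k, n k • y k) := by
      obtain ⟨j, hj⟩ : ∃ j : ℤ, N • (x - ∑ k, n k • y k) = j • unitFrac σ.q := by
        refine ⟨m - ∑ k, n k • l k, ?_⟩
        rw [smul_sub, Finset.smul_sum, Finset.sum_congr rfl (fun k _ =>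
          (smul_comm N (n k) (y k)).trans (by rw [hyl])), ← hm]
        simp only [← map_zsmul, ← map_sum, ← map_sub]
        rw [show ((c, m) : (Fin d → ℤ) × ℤ) - ∑ k, n k • ((B k : Fin d → ℤ), l k) =
          (0, m - ∑ k, n k • l k) from Prod.ext (by simp only [Prod.fst_sub, Prod.fst_sum, Prod.smul_mk, hc, sub_self])
            (by simp [Prod.snd_sum])]
        simp [Stage.comb_apply]
      obtain ⟨q', hq', hz⟩ := tors_zsmul_unitFrac σ.q_pos j
      exact ⟨q' * N, Nat.mul_pos hq' hN, by rw [mul_smul, hj, hz]⟩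
    obtain ⟨e, he⟩ := htor _ (sub_mem hx (sum_mem fun k _ => zsmul_mem (hyG k) _)) ht
    exact ⟨n, e, by simp only [coe_frac]; rw [← he, add_sub_cancel]⟩

/-- the extension by an element of bounded index -/
theorem Stage.exists_ext (σ : Stage d) (v : ℝ) (N : ℕ) (hN : 0 < N)
    (hv : N • (v : UnitAddCircle) ∈ σ.grp)
    (htor : ∀ x ∈ σ.grp ⊔ AddSubgroup.zmultiples (v : UnitAddCircle), Tors x →
      ∃ l : ℤ, x = l • unitFrac σ.q) :
    ∃ X : Ext σ, X.v = v ∧ X.r = 1 := by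
  obtain ⟨β, hind, hβ, hgen⟩ := σ.exists_basis _ le_sup_left N hN (fun x hx => by
    obtain ⟨g, hg, z, hz, rfl⟩ := AddSubgroup.mem_sup.1 hx
    obtain ⟨k, rfl⟩ := AddSubgroup.mem_zmultiples_iff.1 hz
    rw [smul_add, smul_comm]
    exact add_mem (nsmul_mem hg N) (zsmul_mem hv k)) htor
  choose A c hA using fun i => hgen _ (le_sup_left (a := σ.grp) (σ.beta_mem i))
  obtain ⟨a, e, ha⟩ := hgen _ (le_sup_right (a := σ.grp) (AddSubgroup.mem_zmultiples _))
  refine ⟨⟨σ.q, 1, (mul_one _).symm, one_pos, β, hind, v, A, c, a, e, fun i => ?_, ?_,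
    (AddSubgroup.closure_le _).2 ?_, Or.inl rfl⟩, rfl, rfl⟩
  · rw [coe_comb]; exact hA i
  · rw [coe_comb]; exact ha
  · rintro x (⟨i, rfl⟩ | rfl)
    · exact hβ i
    · exact le_sup_left (a := σ.grp) σ.frac_mem_grp

/-- the extension of the torsion -/
theorem Stage.exists_extA (σ : Stage d) (q' : ℕ) (hdvd : σ.q ∣ q') (hq' : 0 < q') :
    ∃ X : Ext σ, X.v = 1 / (q' : ℝ) ∧ X.q = q' ∧ X.β = σ.β ∧
      ∀ k : ℕ, 0 < k → k < X.r → k • (X.v : UnitAddCircle) ∉ σ.grp := by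
  classical
  obtain ⟨r, rfl⟩ := hdvd
  have hr : 0 < r := Nat.pos_of_ne_zero fun e => by simp [e] at hq'
  refine ⟨⟨σ.q * r, r, rfl, hr, σ.β, σ.indep, 1 / ((σ.q * r : ℕ) : ℝ),
    fun i k => if i = k then 1 else 0, 0, 0, 1, fun i => ?_, ?_,
    (AddSubgroup.closure_le _).2 ?_, Or.inr ⟨rfl, rfl⟩⟩, rfl, rfl, rfl, fun k hk hkr hmem => ?_⟩
  · simp
  · simp
  · rintro x (⟨i, rfl⟩ | rfl)
    · exact le_sup_left (b := AddSubgroup.zmultiples _) (σ.beta_mem i)
    · exact le_sup_right (a := σ.grp) (AddSubgroup.mem_zmultiples _)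
  · change k • unitFrac (σ.q * r) ∈ σ.grp at hmem
    obtain ⟨l, hl⟩ := σ.tors_grp hmem (by
      rw [← natCast_zsmul]; exact tors_zsmul_unitFrac hq' _)
    rw [unitFrac_of_dvd (Dvd.intro r rfl) hq', Nat.mul_div_cancel_left _ σ.q_pos, ← mul_smul,
      ← natCast_zsmul, ← sub_eq_zero, ← sub_smul] at hl
    have h := dvd_of_zsmul_eq_zero hq' hl
    have h2 : (r : ℤ) ∣ (k : ℤ) - l * r :=
      (Int.natCast_dvd_natCast.2 (Dvd.intro_left σ.q rfl)).trans h
    have h3 : (r : ℤ) ∣ (k : ℤ) := by simpa using dvd_add h2 (Dvd.intro_left l rfl : (r : ℤ) ∣ l * r)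
    exact absurd (Nat.le_of_dvd hk (Int.natCast_dvd_natCast.1 h3)) (not_le.2 hkr)

theorem Stage.beta_irrational (σ : Stage d) (i : Fin d) : Irrational (σ.β i) := by
  classical
  rintro ⟨s, hs⟩
  have h := σ.indep (Pi.single i (s.den : ℤ)) s.num (by
    simp only [Pi.single_apply, Int.cast_ite, Int.cast_zero, ite_mul, zero_mul,
      Finset.sum_ite_eq', Finset.mem_univ, if_true, Int.cast_natCast]
    rw [← hs]
    exact_mod_cast Rat.den_mul_eq_num s)
  have := congrFun h i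
  simp at this

/-- small representatives modulo the group of a stage -/
theorem Stage.exists_small (σ : Stage d) (hd : 0 < d) (w : UnitAddCircle) {δ : ℝ} (hδ : 0 < δ) :
    ∃ v : ℝ, |v| < δ ∧ (v : UnitAddCircle) - w ∈ σ.grp := by
  have hden : DenseRange fun n : ℤ => n • ((σ.β ⟨0, hd⟩ : ℝ) : UnitAddCircle) :=
    AddCircle.denseRange_zsmul_coe_iff.2 (by simpa using σ.beta_irrational ⟨0, hd⟩)
  obtain ⟨n, hn⟩ := hden.exists_dist_lt (-w) hδ
  rw [dist_eq_norm] at hn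
  obtain ⟨t, ht⟩ : ∃ t : ℝ, (t : UnitAddCircle) = -w - n • ((σ.β ⟨0, hd⟩ : ℝ) : UnitAddCircle) :=
    ⟨frac _, coe_frac _⟩
  refine ⟨-(t - round t), ?_, ?_⟩
  · rw [abs_neg, ← UnitAddCircle.norm_eq, ht]
    exact hn
  · rw [QuotientAddGroup.mk_neg, QuotientAddGroup.mk_sub, coe_int, sub_zero, ht,
      show -(-w - n • ((σ.β ⟨0, hd⟩ : ℝ) : UnitAddCircle)) - w =
        n • ((σ.β ⟨0, hd⟩ : ℝ) : UnitAddCircle) by abel]
    exact zsmul_mem (σ.beta_mem _) n

end

end Vale.Agent.P109.Spectral
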