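import Vale.Agent.P109.Spectral.Recursion.Label

/-!
P109: the choice of the extensions along an exhaustion of the group of eigenvalues.
-/

namespace Vale.Agent.P109.Spectral

noncomputable section

variable {d : ℕ}

/-- the torsion of a group of eigenvalues -/
def torsSet (Λ : AddSubgroup UnitAddCircle) : Set UnitAddCircle := {x | x ∈ Λ ∧ Tors x}

/-- the invariants kept along the recursion -/
structure Inv (Λ : AddSubgroup UnitAddCircle) (σ : Stage d) : Prop where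
  le : σ.grp ≤ Λ
  index : ∀ a ∈ Λ, ∃ N : ℕ, 0 < N ∧ N • a ∈ σ.grp
  tors : (torsSet Λ).Finite → ∀ x ∈ Λ, Tors x → ∃ l : ℤ, x = l • unitFrac σ.q

variable {Λ : AddSubgroup UnitAddCircle} {σ τ : Stage d}

theorem Ext.q_pos (X : Ext σ) : 0 < X.q := X.q_eq ▸ Nat.mul_pos σ.q_pos X.r_pos

theorem Inv.step (hI : Inv Λ σ) (X : Ext σ) (hq : τ.q = X.q) (hβ : τ.β = X.β)
    (hv : (X.v : UnitAddCircle) ∈ Λ) :
    Inv Λ τ ∧ σ.grp ≤ τ.grp ∧ (X.v : UnitAddCircle) ∈ τ.grp ∧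
      τ.grp ≤ σ.grp ⊔ AddSubgroup.zmultiples (X.v : UnitAddCircle) := by
  have hle : τ.grp ≤ σ.grp ⊔ AddSubgroup.zmultiples (X.v : UnitAddCircle) := by
    rw [Stage.grp, hq, hβ]
    exact X.generated
  have hsub : σ.grp ≤ τ.grp := (X.ev_pull hq hβ 0 σ.grp.zero_mem).1
  refine ⟨⟨hle.trans (sup_le hI.le (AddSubgroup.zmultiples_le_of_mem hv)), fun a ha => ?_,
    fun hfin x hx ht => ?_⟩, hsub, ?_, hle⟩
  · obtain ⟨N, hN, hNa⟩ := hI.index a ha
    exact ⟨N, hN, hsub hNa⟩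
  · obtain ⟨l, hl⟩ := hI.tors hfin x hx ht
    rw [hq]
    exact mult_of_dvd (Dvd.intro X.r X.q_eq.symm) X.q_pos hl
  · have h := τ.comb_mem (X.a, X.e)
    rw [Stage.comb_apply, hβ, hq, unitFrac, ← X.v_circle] at h
    exact h

/-- arbitrarily large denominators when there is infinite torsion -/
theorem exists_big (hinf : ¬ (torsSet Λ).Finite) (B : ℕ) : ∃ N, B < N ∧ unitFrac N ∈ Λ := by
  by_contra hno
  refine hinf ((AddCircle.finite_torsion (1 : ℝ) (Nat.factorial_pos B)).subset ?_)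
  rintro x ⟨hx, ht⟩
  obtain ⟨N, hN, hNΛ, -, hord⟩ := exists_order hx ht
  have hNB : N ≤ B := not_lt.1 fun h => hno ⟨N, h, hNΛ⟩
  obtain ⟨k, hk⟩ := Nat.dvd_factorial hN hNB
  show B.factorial • x = 0
  rw [hk, mul_comm, mul_smul, ← hord, addOrderOf_nsmul_eq_zero, smul_zero]

/-- when the group is not finitely generated it has elements of large index above a stage -/
theorem Inv.not_bounded (hI : Inv Λ σ) (hfin : (torsSet Λ).Finite) (hFG : ¬ Λ.FG) {M : ℕ}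
    (hM : 0 < M) : ∃ w ∈ Λ, M • w ∉ σ.grp := by
  classical
  by_contra hno
  obtain ⟨β, -, hβ, hgen⟩ := σ.exists_basis Λ hI.le M hM
    (fun x hx => not_not.1 fun h => hno ⟨x, hx, h⟩) (hI.tors hfin)
  refine hFG ⟨insert (unitFrac σ.q) (Finset.univ.image fun i => (β i : UnitAddCircle)),
    le_antisymm ((AddSubgroup.closure_le _).2 fun x hx => ?_) fun x hx => ?_⟩
  · rcases Finset.mem_insert.1 hx with rfl | h
    · exact hI.le σ.frac_mem_grp
    · obtain ⟨i, -, rfl⟩ := Finset.mem_image.1 h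
      exact hβ i
  · obtain ⟨n, e, rfl⟩ := hgen x hx
    exact add_mem (sum_mem fun i _ => zsmul_mem (AddSubgroup.subset_closure
      (Finset.mem_insert_of_mem (Finset.mem_image_of_mem _ (Finset.mem_univ i)))) _)
      (zsmul_mem (AddSubgroup.subset_closure (Finset.mem_insert_self _ _)) _)

/-- in rank zero every eigenvalue has finite order -/
theorem Inv.tors_rank_zero (hI : Inv Λ σ) (hd : d = 0) {x : UnitAddCircle} (hx : x ∈ Λ) :
    Tors x := by
  obtain ⟨N, hN, hNx⟩ := hI.index x hx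
  rw [σ.grp_eq] at hNx
  obtain ⟨⟨c, l⟩, hl⟩ := hNx
  subst hd
  obtain ⟨m, hm, hz⟩ := tors_zsmul_unitFrac σ.q_pos l
  refine ⟨m * N, Nat.mul_pos hm hN, ?_⟩
  rw [mul_smul, ← hl, Stage.comb_apply, Finset.univ_eq_empty, Finset.sum_empty, zero_add, hz]

/-- the torsion above a stage and one more element has a common denominator -/
theorem Inv.exists_denom (hI : Inv Λ σ) {a : UnitAddCircle} (ha : a ∈ Λ) :
    ∃ L, 0 < L ∧ unitFrac L ∈ Λ ∧
      ∀ x ∈ σ.grp ⊔ AddSubgroup.zmultiples a, Tors x → ∃ l : ℤ, x = l • unitFrac L := by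
  classical
  obtain ⟨m, hm, hma⟩ := hI.index a ha
  obtain ⟨L, hL, hLΛ, hdvd⟩ := exists_common
    ((σ.q * m).divisors.filter fun N => unitFrac N ∈ Λ) fun N hN =>
      ⟨Nat.pos_of_mem_divisors (Finset.mem_filter.1 hN).1, (Finset.mem_filter.1 hN).2⟩
  refine ⟨L, hL, hLΛ, fun x hx ht => ?_⟩
  obtain ⟨N, hN, hNΛ, ⟨k, hk⟩, hord⟩ :=
    exists_order (sup_le hI.le (AddSubgroup.zmultiples_le_of_mem ha) hx) ht
  obtain ⟨g, hg, z, hz, rfl⟩ := AddSubgroup.mem_sup.1 hx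
  obtain ⟨j, rfl⟩ := AddSubgroup.mem_zmultiples_iff.1 hz
  have hmx : m • (g + j • a) ∈ σ.grp := by
    rw [smul_add, smul_comm]
    exact add_mem (nsmul_mem hg m) (zsmul_mem hma j)
  obtain ⟨n, hn, hnx⟩ := ht
  obtain ⟨l, hl⟩ := σ.tors_grp hmx ⟨n, hn, by rw [smul_comm, hnx, smul_zero]⟩
  have hdv : addOrderOf (g + j • a) ∣ σ.q * m := addOrderOf_dvd_of_nsmul_eq_zero (by
    rw [mul_smul, hl, smul_comm, nsmul_unitFrac_self σ.q_pos, smul_zero])
  exact mult_of_dvd (hdvd N (Finset.mem_filter.2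
    ⟨Nat.mem_divisors.2 ⟨hord ▸ hdv, (Nat.mul_pos σ.q_pos hm).ne'⟩, hNΛ⟩)) hL hk

/-- the first extension: small, of large order, absorbing the torsion above `a` -/
theorem Inv.first (hI : Inv Λ σ) (hFG : ¬ Λ.FG) {a : UnitAddCircle} (ha : a ∈ Λ) {δ : ℝ}
    (hδ : 0 < δ) (M : ℕ) :
    ∃ X : Ext σ, (X.v : UnitAddCircle) ∈ Λ ∧ |X.v| < δ ∧
      (∀ k : ℕ, 0 < k → k < M → k • (X.v : UnitAddCircle) ∉ σ.grp) ∧
      ∀ x ∈ σ.grp ⊔ AddSubgroup.zmultiples (X.v : UnitAddCircle) ⊔ AddSubgroup.zmultiples a,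
        Tors x → ∃ l : ℤ, x = l • unitFrac X.q := by
  classical
  by_cases hfin : (torsSet Λ).Finite
  · obtain ⟨w, hw, hMw⟩ := hI.not_bounded hfin hFG (Nat.factorial_pos M)
    have hd : 0 < d := by
      refine Nat.pos_of_ne_zero fun hd => hMw (nsmul_mem ?_ _)
      obtain ⟨l, hl⟩ := hI.tors hfin w hw (hI.tors_rank_zero hd hw)
      exact hl ▸ zsmul_mem σ.frac_mem_grp l
    obtain ⟨v, hvδ, hvw⟩ := σ.exists_small hd w hδ
    have hvΛ : (v : UnitAddCircle) ∈ Λ := by simpa using add_mem (hI.le hvw) hw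
    obtain ⟨N, hN, hNv⟩ := hI.index _ hvΛ
    obtain ⟨X, rfl, hXr⟩ := σ.exists_ext v N hN hNv fun x hx ht =>
      hI.tors hfin x (sup_le hI.le (AddSubgroup.zmultiples_le_of_mem hvΛ) hx) ht
    refine ⟨X, hvΛ, hvδ, fun k hk hkM hmem => hMw ?_, fun x hx ht => ?_⟩
    · obtain ⟨c, hc⟩ := Nat.dvd_factorial hk hkM.le
      have hkw : k • w ∈ σ.grp := by
        simpa [smul_sub] using sub_mem hmem (nsmul_mem hvw k)
      rw [hc, mul_comm, mul_smul]
      exact nsmul_mem hkw c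
    · rw [X.q_eq, hXr, mul_one]
      exact hI.tors hfin x (sup_le (sup_le hI.le (AddSubgroup.zmultiples_le_of_mem hvΛ))
        (AddSubgroup.zmultiples_le_of_mem ha) hx) ht
  · obtain ⟨L, hL, hLΛ, hLtor⟩ := hI.exists_denom ha
    obtain ⟨B, hB⟩ := exists_nat_gt (1 / δ)
    obtain ⟨N, hN, hNΛ⟩ := exists_big hfin (max B (σ.q * M))
    have hN0 : 0 < N := (Nat.zero_le _).trans_lt hN
    set q' := Nat.lcm σ.q (Nat.lcm L N) with hq'def
    have hLN := Nat.lcm_pos hL hN0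
    have hq' : 0 < q' := Nat.lcm_pos σ.q_pos hLN
    have hNq : N ≤ q' :=
      Nat.le_of_dvd hq' ((Nat.dvd_lcm_right L N).trans (Nat.dvd_lcm_right _ _))
    obtain ⟨X, hXv, hXq, -, hord⟩ := σ.exists_extA q' (Nat.dvd_lcm_left _ _) hq'
    have hq'Λ : unitFrac q' ∈ Λ :=
      unitFrac_lcm_mem σ.q_pos hLN (hI.le σ.frac_mem_grp) (unitFrac_lcm_mem hL hN0 hLΛ hNΛ)
    refine ⟨X, hXv ▸ hq'Λ, ?_, fun k hk hkM => hord k hk ?_, fun x hx ht => ?_⟩
    · rw [hXv, abs_of_nonneg (by positivity), div_lt_iff₀ (by exact_mod_cast hq')]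
      have h1 : (B : ℝ) < q' := by
        exact_mod_cast ((le_max_left _ _).trans_lt hN).trans_le hNq
      rw [div_lt_iff₀ hδ] at hB
      nlinarith
    · have h1 : σ.q * M < σ.q * X.r := by
        rw [← X.q_eq, hXq]
        exact ((le_max_right _ _).trans_lt hN).trans_le hNq
      exact hkM.trans (Nat.lt_of_mul_lt_mul_left h1)
    · rw [hXq]
      obtain ⟨y, hy, z, hz, rfl⟩ := AddSubgroup.mem_sup.1 hx
      obtain ⟨g, hg, w, hw, rfl⟩ := AddSubgroup.mem_sup.1 hy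
      obtain ⟨j, rfl⟩ := AddSubgroup.mem_zmultiples_iff.1 hw
      rw [hXv] at ht ⊢
      change Tors (g + j • unitFrac q' + z) at ht
      change ∃ l : ℤ, g + j • unitFrac q' + z = l • unitFrac q'
      obtain ⟨l, hl⟩ := hLtor (g + z) (add_mem (AddSubgroup.mem_sup_left hg)
        (AddSubgroup.mem_sup_right hz)) (by
          have h := ht.sub (tors_zsmul_unitFrac hq' j)
          rwa [show g + j • unitFrac q' + z - j • unitFrac q' = g + z by abel] at h)
      obtain ⟨l', hl'⟩ :=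
        mult_of_dvd ((Nat.dvd_lcm_left L N).trans (Nat.dvd_lcm_right σ.q _)) hq' hl
      exact ⟨l' + j, by rw [add_smul, ← hl']; abel⟩

/-- the second extension: small, containing `a` -/
theorem Inv.second (hI : Inv Λ σ) {a : UnitAddCircle} (ha : a ∈ Λ)
    (htor : ∀ x ∈ σ.grp ⊔ AddSubgroup.zmultiples a, Tors x → ∃ l : ℤ, x = l • unitFrac σ.q)
    {δ : ℝ} (hδ : 0 < δ) :
    ∃ X : Ext σ, (X.v : UnitAddCircle) ∈ Λ ∧ |X.v| < δ ∧
      ∀ τ : Stage d, σ.grp ≤ τ.grp → (X.v : UnitAddCircle) ∈ τ.grp → a ∈ τ.grp := by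
  by_cases hmem : a ∈ σ.grp
  · obtain ⟨X, hX, -⟩ := σ.exists_ext 0 1 one_pos (by simp) fun x hx ht =>
      htor x (sup_le le_sup_left (AddSubgroup.zmultiples_le_of_mem (by simp)) hx) ht
    exact ⟨X, by simp [hX], by simpa [hX] using hδ, fun τ hle _ => hle hmem⟩
  · have hd : 0 < d := by
      refine Nat.pos_of_ne_zero fun hd => hmem ?_
      obtain ⟨l, hl⟩ := htor a (AddSubgroup.mem_sup_right (AddSubgroup.mem_zmultiples a))
        (hI.tors_rank_zero hd ha)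
      exact hl ▸ zsmul_mem σ.frac_mem_grp l
    obtain ⟨v, hvδ, hva⟩ := σ.exists_small hd a hδ
    have hvΛ : (v : UnitAddCircle) ∈ Λ := by simpa using add_mem (hI.le hva) ha
    have hvsup : (v : UnitAddCircle) ∈ σ.grp ⊔ AddSubgroup.zmultiples a := by
      simpa using add_mem (AddSubgroup.mem_sup_left hva)
        (AddSubgroup.mem_sup_right (S := σ.grp) (AddSubgroup.mem_zmultiples a))
    obtain ⟨N, hN, hNv⟩ := hI.index _ hvΛ
    obtain ⟨X, rfl, -⟩ := σ.exists_ext v N hN hNv fun x hx ht =>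
      htor x (sup_le le_sup_left (AddSubgroup.zmultiples_le_of_mem hvsup) hx) ht
    exact ⟨X, hvΛ, hvδ, fun τ hle hv => by simpa using sub_mem hv (hle hva)⟩

/-- the initial stage -/
theorem exists_base (Λ : AddSubgroup UnitAddCircle) (d : ℕ) (b : Fin d → Λ)
    (hind : ∀ c : Fin d → ℤ, ∑ i, c i • b i = 0 → c = 0)
    (hspan : ∀ a : Λ, ∃ n : ℕ, 0 < n ∧ ∃ c : Fin d → ℤ, n • a = ∑ i, c i • b i) :
    ∃ σ : Stage d, Inv Λ σ := by
  classical
  obtain ⟨L, hL, hLΛ, hLtor⟩ : ∃ L, 0 < L ∧ unitFrac L ∈ Λ ∧ ((torsSet Λ).Finite →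
      ∀ x ∈ Λ, Tors x → ∃ l : ℤ, x = l • unitFrac L) := by
    by_cases hfin : (torsSet Λ).Finite
    · obtain ⟨L, hL, hLΛ, hdvd⟩ := exists_common (hfin.toFinset.image addOrderOf) fun N hN => by
        obtain ⟨x, hx, rfl⟩ := Finset.mem_image.1 hN
        obtain ⟨hxΛ, hxt⟩ := hfin.mem_toFinset.1 hx
        obtain ⟨N, hN0, hNΛ, -, hord⟩ := exists_order hxΛ hxt
        rw [hord]
        exact ⟨hN0, hNΛ⟩
      refine ⟨L, hL, hLΛ, fun _ x hx ht => ?_⟩
      obtain ⟨N, -, -, ⟨k, hk⟩, hord⟩ := exists_order hx ht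
      exact mult_of_dvd (hdvd N (Finset.mem_image.2 ⟨x, hfin.mem_toFinset.2 ⟨hx, ht⟩, hord⟩))
        hL hk
    · exact ⟨1, one_pos, by simp [unitFrac, AddCircle.coe_period], fun h => absurd h hfin⟩
  have hindR : ∀ (c : Fin d → ℤ) (k : ℤ),
      ∑ i, (c i : ℝ) * frac (b i : UnitAddCircle) = (k : ℝ) → c = 0 := fun c k h => by
    refine hind c (Subtype.ext ?_)
    have e := coe_comb c 0 (fun i => frac (b i : UnitAddCircle)) 1
    simp only [h, coe_int, coe_frac, Int.cast_zero, zero_div, add_zero, zero_smul] at e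
    simpa using e.symm
  let σ : Stage d :=
    { q := L, q_pos := hL, β := fun i => frac (b i : UnitAddCircle), indep := hindR, k := 0,
      H := TD.one }
  refine ⟨σ, ⟨(AddSubgroup.closure_le _).2 ?_, fun a ha => ?_, hLtor⟩⟩
  · rintro x (⟨i, rfl⟩ | rfl)
    · show ((frac (b i : UnitAddCircle) : ℝ) : UnitAddCircle) ∈ Λ
      rw [coe_frac]
      exact (b i).2
    · exact hLΛ
  · obtain ⟨n, hn, c, hc⟩ := hspan ⟨a, ha⟩
    refine ⟨n, hn, ?_⟩
    have e := congrArg (Subtype.val : Λ → UnitAddCircle) hc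
    simp only [AddSubmonoidClass.coe_finsetSum, AddSubgroupClass.coe_zsmul,
      AddSubmonoidClass.coe_nsmul] at e
    rw [e]
    refine sum_mem fun i _ => zsmul_mem ?_ _
    simpa [σ, coe_frac] using σ.beta_mem i

end

end Vale.Agent.P109.Spectral
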