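import Vale.Agent.P109.Spectral.Recursion.Arith

/-!
P109: eigenfunctions read off the labels of a stage.
-/

namespace Vale.Agent.P109.Spectral

open MeasureTheory

noncomputable section

variable {d : ℕ}

/-- linear extension of a label -/
def labEval (p : Lab d) (n : (Fin d → ℤ) × ℤ) : UnitAddCircle :=
  (∑ i, n.1 i • p (some i)) + n.2 • p none

theorem labEval_add_left (p p' : Lab d) (n : (Fin d → ℤ) × ℤ) :
    labEval (fun o => p o + p' o) n = labEval p n + labEval p' n := by
  simp only [labEval, smul_add, Finset.sum_add_distrib]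
  abel

theorem labEval_add_right (p : Lab d) (n n' : (Fin d → ℤ) × ℤ) :
    labEval p (n + n') = labEval p n + labEval p n' := by
  simp only [labEval, Prod.fst_add, Prod.snd_add, Pi.add_apply, add_smul, Finset.sum_add_distrib]
  abel

theorem dist_labEval_le (p p' : Lab d) (n : (Fin d → ℤ) × ℤ) :
    dist (labEval p n) (labEval p' n) ≤ (∑ i, |(n.1 i : ℝ)| + |(n.2 : ℝ)|) * dist p p' := by
  have h : ∀ (k : ℤ) (o : Option (Fin d)),
      dist (k • p o) (k • p' o) ≤ |(k : ℝ)| * dist p p' := fun k o => by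
    rw [dist_eq_norm, ← smul_sub]
    refine (norm_zsmul_le _ _).trans ?_
    rw [Int.norm_eq_abs, ← dist_eq_norm]
    exact mul_le_mul_of_nonneg_left (dist_le_pi_dist p p' o) (abs_nonneg _)
  refine (dist_add_add_le _ _ _ _).trans ?_
  rw [add_mul, Finset.sum_mul]
  exact add_le_add ((dist_sum_sum_le _ _ _).trans (Finset.sum_le_sum fun i _ => h _ _)) (h _ _)

theorem sector_torsion {q : ℕ} (hq : 0 < q) (a : UnitAddCircle) : q • sector q a = 0 := by
  obtain ⟨n, hn⟩ := exists_sector_eq q a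
  rw [hn, smul_coe_div q hq, coe_int]

theorem sector_add_div {q : ℕ} (hq : 0 < q) (a : UnitAddCircle) (k : ℤ) :
    sector q (a + k • unitFrac q) = sector q a + k • unitFrac q := by
  obtain ⟨n, hn⟩ := exists_sector_eq q a
  conv_lhs => rw [sector_split q hq a, hn, zsmul_unitFrac, ← QuotientAddGroup.mk_add,
    ← QuotientAddGroup.mk_add]
  rw [show ((n : ℝ) / q + frac (q • a) / q + (k : ℝ) / q) =
      (((n + k : ℤ) : ℝ) + frac (q • a)) / q by push_cast; ring,
    sector_add q hq _ _ (frac_mem _).1 (frac_mem _).2, hn, zsmul_unitFrac,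
    ← QuotientAddGroup.mk_add]
  push_cast
  rw [add_div]

theorem Stage.lab_none_torsion (σ : Stage d) (x : Tor (Ix d)) : σ.q • σ.lab x none = 0 :=
  sector_torsion σ.q_pos _

open Classical in
/-- chosen coefficients of an eigenvalue -/
def Stage.coef (σ : Stage d) (a : UnitAddCircle) : (Fin d → ℤ) × ℤ :=
  if h : ∃ n, σ.comb n = a then h.choose else 0

theorem Stage.comb_coef (σ : Stage d) {a : UnitAddCircle} (ha : a ∈ σ.grp) :
    σ.comb (σ.coef a) = a := by
  rw [σ.grp_eq] at ha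
  have h : ∃ n, σ.comb n = a := ha
  rw [Stage.coef, dif_pos h]
  exact h.choose_spec

/-- the eigenfunction of an eigenvalue at a stage -/
def Stage.ev (σ : Stage d) (x : Tor (Ix d)) (a : UnitAddCircle) : UnitAddCircle :=
  labEval (σ.lab x) (σ.coef a)

theorem Stage.ev_comb (σ : Stage d) (x : Tor (Ix d)) (n : (Fin d → ℤ) × ℤ) :
    σ.ev x (σ.comb n) = labEval (σ.lab x) n := by
  obtain ⟨h1, j, hj⟩ := σ.comb_eq_comb (σ.comb_coef (σ.comb_mem n))
  have h2 : (σ.coef (σ.comb n)).2 = n.2 + (σ.q : ℤ) * j := by omega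
  rw [Stage.ev, labEval, labEval, h1, h2, add_smul, mul_comm, mul_smul, natCast_zsmul,
    σ.lab_none_torsion, smul_zero, add_zero]

theorem Stage.ev_beta (σ : Stage d) (x : Tor (Ix d)) (i : Fin d) :
    σ.ev x (σ.β i : UnitAddCircle) = σ.lab x (some i) := by
  classical
  rw [← σ.comb_single i, σ.ev_comb]
  simp [labEval, Pi.single_apply, ite_smul]

theorem Stage.ev_unitFrac (σ : Stage d) (x : Tor (Ix d)) :
    σ.ev x (unitFrac σ.q) = σ.lab x none := by
  rw [← σ.comb_none, σ.ev_comb]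
  simp [labEval]

theorem Stage.ev_add (σ : Stage d) (x : Tor (Ix d)) {a b : UnitAddCircle} (ha : a ∈ σ.grp)
    (hb : b ∈ σ.grp) : σ.ev x (a + b) = σ.ev x a + σ.ev x b := by
  rw [σ.grp_eq] at ha hb
  obtain ⟨n, rfl⟩ := ha
  obtain ⟨n', rfl⟩ := hb
  rw [← map_add, σ.ev_comb, σ.ev_comb, σ.ev_comb, labEval_add_right]

theorem Stage.measurable_ev (σ : Stage d) (a : UnitAddCircle) : Measurable fun x => σ.ev x a := by
  have hc : Continuous fun p : Lab d => labEval p (σ.coef a) := by
    unfold labEval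
    fun_prop
  exact hc.measurable.comp ((measurable_labCoord σ.q).comp σ.H.map.symm.continuous.measurable)

/-- compatibility with an extension -/
theorem Ext.ev_pull {σ τ : Stage d} (X : Ext σ) (hq : τ.q = X.q) (hβ : τ.β = X.β)
    (x : Tor (Ix d)) {a : UnitAddCircle} (ha : a ∈ σ.grp) :
    σ.grp ≤ τ.grp ∧ τ.ev x a = labEval (X.pull (τ.lab x)) (σ.coef a) := by
  have hqX : 0 < X.q := by rw [X.q_eq]; exact Nat.mul_pos σ.q_pos X.r_pos
  have hone : unitFrac σ.q = (X.r : ℤ) • unitFrac X.q := by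
    have h := unitFrac_of_dvd (Dvd.intro X.r X.q_eq.symm) hqX
    rwa [show X.q / σ.q = X.r by rw [X.q_eq, Nat.mul_div_cancel_left _ σ.q_pos]] at h
  let f : (Fin d → ℤ) × ℤ → (Fin d → ℤ) × ℤ := fun n =>
    (fun k => ∑ i, n.1 i * X.A i k, (∑ i, n.1 i * X.c i) + n.2 * X.r)
  have key : ∀ n, σ.comb n = τ.comb (f n) := fun n => by
    rw [show σ.comb n = _ from σ.comb_apply n.1 n.2, show τ.comb (f n) = _ from
      τ.comb_apply (f n).1 (f n).2, hq, hβ, hone]
    simp only [X.old_circle, f, Finset.sum_smul, add_smul, smul_add, Finset.smul_sum, ← mul_smul,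
      Finset.sum_add_distrib, unitFrac]
    rw [Finset.sum_comm, add_assoc]
  refine ⟨fun y hy => ?_, ?_⟩
  · rw [σ.grp_eq] at hy
    obtain ⟨n, rfl⟩ := hy
    rw [key]; exact τ.comb_mem _
  · conv_lhs => rw [← σ.comb_coef ha, key, τ.ev_comb]
    simp only [labEval, f, Ext.pull, Option.elim_none, Option.elim_some, Finset.sum_smul, add_smul,
      smul_add, Finset.smul_sum, ← mul_smul, Finset.sum_add_distrib, ← natCast_zsmul]
    rw [Finset.sum_comm, add_assoc]

theorem Stage.symm_conjRot (σ : Stage d) {S : TD (Ix d)} (hS : IsConjRot σ.H σ.vec S)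
    (x : Tor (Ix d)) : σ.H.map.symm (S.map x) = σ.H.map.symm x + proj σ.vec := by
  obtain ⟨y, rfl⟩ := proj_surjective x
  rw [S.map_proj, hS.1, σ.H.map_symm_proj, σ.H.gf, σ.H.map_symm_proj, proj_add]

theorem Stage.ev_conjRot (σ : Stage d) {S : TD (Ix d)} (hS : IsConjRot σ.H σ.vec S)
    (x : Tor (Ix d)) {a : UnitAddCircle} (ha : a ∈ σ.grp) :
    σ.ev (S.map x) a = σ.ev x a + a := by
  have hlab : σ.lab (S.map x) = fun o => σ.lab x o +
      o.elim (unitFrac σ.q) fun i => (σ.β i : UnitAddCircle) := by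
    funext o
    rw [Stage.lab, σ.symm_conjRot hS, σ.proj_vec]
    cases o with
    | none =>
      change sector σ.q (σ.H.map.symm x (Sum.inr 0) + proj (baseVec σ.q σ.β) (Sum.inr 0)) = _
      rw [show proj (baseVec σ.q σ.β) (Sum.inr 0) = (1 : ℤ) • unitFrac σ.q by
        rw [one_smul]; rfl, sector_add_div σ.q_pos, one_smul]
      rfl
    | some i => rfl
  conv_rhs => arg 2; rw [← σ.comb_coef ha]
  rw [Stage.ev, Stage.ev, hlab, labEval_add_left]
  rfl

/-- invariance of the law of the eigenfunctions -/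
theorem Stage.exists_shift (σ : Stage d) (χ : UnitAddCircle → UnitAddCircle)
    (hχ : ∀ a ∈ σ.grp, ∀ b ∈ σ.grp, χ (a + b) = χ a + χ b) :
    ∃ φ : Tor (Ix d) → Tor (Ix d), MeasurePreserving φ volume volume ∧
      ∀ x, ∀ a ∈ σ.grp, σ.ev (φ x) a = σ.ev x a + χ a := by
  let χ' : σ.grp →+ UnitAddCircle :=
    AddMonoidHom.mk' (fun a => χ a) fun a b => hχ a a.2 b b.2
  let u : σ.grp := ⟨unitFrac σ.q, σ.frac_mem_grp⟩
  obtain ⟨k, hk⟩ : ∃ k : ℤ, χ' u = k • unitFrac σ.q := exists_eq_zsmul_of_nsmul σ.q_pos (by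
    rw [← map_nsmul, show σ.q • u = 0 from Subtype.ext (nsmul_unitFrac_self σ.q_pos), map_zero])
  let w : Tor (Ix d) := Sum.elim (fun i => χ (σ.β i : UnitAddCircle)) ![k • unitFrac σ.q, 0]
  refine ⟨fun x => σ.H.map (σ.H.map.symm x + w), σ.H.preserves.comp
    ((measurePreserving_add_right volume w).comp σ.H.symm.preserves), fun x a ha => ?_⟩
  have hlab : σ.lab (σ.H.map (σ.H.map.symm x + w)) = fun o => σ.lab x o +
      o.elim (χ (unitFrac σ.q)) fun i => χ (σ.β i : UnitAddCircle) := by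
    funext o
    rw [Stage.lab, Homeomorph.symm_apply_apply]
    cases o with
    | none =>
      change sector σ.q (σ.H.map.symm x (Sum.inr 0) + k • unitFrac σ.q) = _
      rw [sector_add_div σ.q_pos, ← hk]
      rfl
    | some i => rfl
  rw [Stage.ev, Stage.ev, hlab, labEval_add_left]
  congr 1
  let g : Option (Fin d) → σ.grp := fun o => o.elim u fun i => ⟨_, σ.beta_mem i⟩
  have e : (∑ i, (σ.coef a).1 i • g (some i)) + (σ.coef a).2 • g none = ⟨a, ha⟩ := by
    refine Subtype.ext ?_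
    rw [AddSubgroup.coe_add, AddSubgroupClass.coe_zsmul]
    simp only [AddSubmonoidClass.coe_finsetSum, AddSubgroupClass.coe_zsmul]
    exact σ.comb_coef ha
  have e2 := congrArg χ' e
  simp only [map_add, map_sum, map_zsmul] at e2
  exact e2

end

end Vale.Agent.P109.Spectral
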