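import Vale.Agent.P109.Spectral.Recursion.Tol
import Vale.Agent.P109.Spectral.Analysis.Manifold

/-!
P109: the recursion along an exhaustion of the group of eigenvalues, and the assembly.
-/

namespace Vale.Agent.P109.Spectral

open MeasureTheory Filter Topology
open scoped Manifold

noncomputable section

variable {d : ℕ} {Λ : AddSubgroup UnitAddCircle}

/-- one state of the recursion: a stage, an error budget and the eigenvalues treated so far -/
structure State (d : ℕ) (Λ : AddSubgroup UnitAddCircle) where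
  σ : Stage d
  inv : Inv Λ σ
  bud : ℝ
  bud_pos : 0 < bud
  E : Finset Λ
  E_mem : ∀ a ∈ E, (a : UnitAddCircle) ∈ σ.grp

/-- what a double step from `s` to `t` achieves -/
structure Link (n : ℕ) (a : Λ) (s t : State d Λ) : Prop where
  bud_le : t.bud ≤ s.bud / 2
  sub : s.E ⊆ t.E
  mem : a ∈ t.E
  near : ∀ S T : TD (Ix d), IsConjRot t.σ.H t.σ.vec S → IsConjRot s.σ.H s.σ.vec T →
    DClose n ((1 / 2) ^ n) S T
  ev : Close s.E (s.bud / 4) (t.σ.evs Λ) (s.σ.evs Λ)
  recover : ∃ r : (Λ → UnitAddCircle) → Tor (Ix d), Continuous r ∧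
    ∀ G : Tor (Ix d) → Λ → UnitAddCircle, Close t.E t.bud G (t.σ.evs Λ) →
      MClose volume ((1 / 2) ^ n) (fun x => r (G x)) id

theorem exists_link (hconj : ConjSpec) (hstep : StepSpec) (hFG : ¬ Λ.FG) (n : ℕ) (a : Λ)
    (s : State d Λ) : ∃ t, Link n a s t := by
  classical
  obtain ⟨σ, hI, bud, hbud, E, hE⟩ := s
  set c : ℝ := (1 / 2) ^ n with hc
  have hc0 : 0 < c := by positivity
  -- first step
  obtain ⟨ε₀, hε₀, htol₀⟩ := exists_tol σ E hE (η := bud / 8) (by positivity)
  set ε₁ := min ε₀ (c / 4) with hε₁def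
  have hε₁ : 0 < ε₁ := lt_min hε₀ (by positivity)
  obtain ⟨δ, hδ, M, hM⟩ := hstep d σ n ε₁ hε₁
  obtain ⟨X, hXΛ, hXδ, hXord, hXtor⟩ := hI.first hFG a.2 hδ M
  obtain ⟨τ, hτq, hτβ, hτnear, hτlab, hτrec⟩ := hM X hXδ
  obtain ⟨r, hr, hrid⟩ := hτrec hXord
  obtain ⟨hIτ, hστ, -, hτle⟩ := hI.step X hτq hτβ hXΛ
  have hev₁ : Close E (bud / 8) (τ.evs Λ) (σ.evs Λ) :=
    htol₀ X τ hτq hτβ (hτlab.mono (min_le_left _ _))
  obtain ⟨η₀, hη₀, hrcont⟩ := Metric.uniformContinuous_iff.mp
    (CompactSpace.uniformContinuous_of_continuous hr) (c / 4) (by positivity)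
  set η := min η₀ c with hηdef
  have hη : 0 < η := lt_min hη₀ hc0
  let gen : Option (Fin d) → Λ := fun o => o.elim ⟨unitFrac τ.q, hIτ.le τ.frac_mem_grp⟩
    fun i => ⟨τ.β i, hIτ.le (τ.beta_mem i)⟩
  have hgen : ∀ o, (gen o : UnitAddCircle) ∈ τ.grp := fun o => by
    cases o with
    | none => exact τ.frac_mem_grp
    | some i => exact τ.beta_mem i
  have hlabgen : ∀ x, τ.lab x = fun o => τ.evs Λ x (gen o) := fun x => funext fun o => by
    cases o with
    | none => exact (τ.ev_unitFrac x).symm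
    | some i => exact (τ.ev_beta x i).symm
  -- second step
  set E' : Finset Λ := E ∪ Finset.univ.image gen with hE'def
  have hE'τ : ∀ b ∈ E', (b : UnitAddCircle) ∈ τ.grp := fun b hb => by
    rcases Finset.mem_union.1 hb with h | h
    · exact hστ (hE b h)
    · obtain ⟨o, -, rfl⟩ := Finset.mem_image.1 h
      exact hgen o
  set η₂ := min (bud / 8) (η / 4) with hη₂def
  have hη₂ : 0 < η₂ := lt_min (by positivity) (by positivity)
  obtain ⟨ε₂', hε₂', htol₂⟩ := exists_tol τ E' hE'τ hη₂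
  set ε₂ := min ε₂' (c / 2) with hε₂def
  have hε₂ : 0 < ε₂ := lt_min hε₂' (by positivity)
  obtain ⟨δ₂, hδ₂, M₂, hM₂⟩ := hstep d τ n ε₂ hε₂
  have htorτ : ∀ x ∈ τ.grp ⊔ AddSubgroup.zmultiples (a : UnitAddCircle), Tors x →
      ∃ l : ℤ, x = l • unitFrac τ.q := fun x hx ht => by
    rw [hτq]
    exact hXtor x (sup_le_sup_right hτle _ hx) ht
  obtain ⟨Y, hYΛ, hYδ, hYa⟩ := hIτ.second a.2 htorτ hδ₂
  obtain ⟨υ, hυq, hυβ, hυnear, hυlab, -⟩ := hM₂ Y hYδ
  obtain ⟨hIυ, hτυ, hYmem, -⟩ := hIτ.step Y hυq hυβ hYΛ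
  have hev₂ : Close E' η₂ (υ.evs Λ) (τ.evs Λ) :=
    htol₂ Y υ hυq hυβ (hυlab.mono (min_le_left _ _))
  have hnew : ∀ b ∈ insert a E', (b : UnitAddCircle) ∈ υ.grp := fun b hb => by
    rcases Finset.mem_insert.1 hb with rfl | h
    · exact hYa υ hτυ hYmem
    · exact hτυ (hE'τ b h)
  refine ⟨⟨υ, hIυ, min (bud / 2) (η / 4), lt_min (by positivity) (by positivity), insert a E', hnew⟩,
    min_le_left _ _, Finset.subset_union_left.trans (Finset.subset_insert a E'),
    Finset.mem_insert_self a E', fun S T hS hT => ?_, ?_, ⟨fun f => r fun o => f (gen o),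
      hr.comp (continuous_pi fun o => continuous_apply (gen o)), fun G hG => ?_⟩⟩
  · obtain ⟨S₁, hS₁⟩ := hconj.1 (Ix d) τ.H τ.vec
    refine ((hυnear S S₁ hS hS₁).trans (hτnear S₁ T hS₁ hT)).mono ?_
    have h1 := min_le_right ε₀ (c / 4)
    have h2 := min_le_right ε₂' (c / 2)
    linarith
  · refine ((hev₂.mono Finset.subset_union_left le_rfl).trans hη₂.le (by positivity) hev₁).mono
      subset_rfl ?_
    have := min_le_left (bud / 8) (η / 4)
    change η₂ + bud / 8 ≤ bud / 4
    linarith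
  · set D := Finset.univ.image gen
    have hD : D ⊆ insert a E' :=
      (Finset.subset_union_right (s₁ := E)).trans (Finset.subset_insert a E')
    have hsum : Close D (η / 2) G (τ.evs Λ) := by
      refine ((hG.mono hD le_rfl).trans (lt_min (by positivity) (by positivity)).le hη₂.le
        (hev₂.mono Finset.subset_union_right le_rfl)).mono subset_rfl ?_
      change min (bud / 2) (η / 4) + η₂ ≤ η / 2
      have h1 := min_le_right (bud / 2) (η / 4)
      have h2 := min_le_right (bud / 8) (η / 4)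
      linarith
    have hε₁c : ε₁ ≤ c / 4 := min_le_right _ _
    have hηc : η ≤ c := min_le_right _ _
    refine le_trans (measure_mono (t := {x | ∃ b ∈ D, η / 2 < dist (G x b) (τ.evs Λ x b)} ∪
      {x | ε₁ < dist (r (τ.lab x)) (id x)}) fun x (hx : c < dist (r fun o => G x (gen o)) x) => ?_)
      ((measure_union_le _ _).trans ((add_le_add hsum hrid).trans ?_))
    · by_contra hn
      simp only [Set.mem_union, Set.mem_ofPred_eq, not_or, not_exists, not_and, not_lt] at hn
      have h1 : dist (fun o => G x (gen o)) (τ.lab x) < η₀ := by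
        refine lt_of_le_of_lt ?_ ((half_lt_self hη).trans_le (min_le_left _ _))
        rw [hlabgen x]
        exact (dist_pi_le_iff (by positivity)).2 fun o =>
          hn.1 (gen o) (Finset.mem_image_of_mem _ (Finset.mem_univ o))
      have h2 := hrcont h1
      have h3 : dist (r (τ.lab x)) x ≤ ε₁ := hn.2
      linarith [dist_triangle (r fun o => G x (gen o)) (r (τ.lab x)) x]
    · rw [← ENNReal.ofReal_add (by positivity) hε₁.le]
      exact ENNReal.ofReal_le_ofReal (by linarith)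

/-- a spanning family of least size is independent -/
theorem indep_of_min {d : ℕ} (b : Fin d → Λ)
    (hspan : ∀ a : Λ, ∃ n : ℕ, 0 < n ∧ ∃ c : Fin d → ℤ, n • a = ∑ i, c i • b i)
    (hmin : ∀ d' < d, ¬ ∃ b : Fin d' → Λ,
      ∀ a : Λ, ∃ n : ℕ, 0 < n ∧ ∃ c : Fin d' → ℤ, n • a = ∑ i, c i • b i) :
    ∀ c : Fin d → ℤ, ∑ i, c i • b i = 0 → c = 0 := by
  intro c hc
  by_contra hne
  obtain ⟨j, hj⟩ := Function.ne_iff.1 hne
  obtain ⟨c, hc, hj⟩ : ∃ c : Fin d → ℤ, ∑ i, c i • b i = 0 ∧ 0 < c j := by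
    rcases lt_or_gt_of_ne hj with h | h
    · exact ⟨-c, by simp [hc], by simpa using h⟩
    · exact ⟨c, hc, h⟩
  obtain ⟨d, rfl⟩ : ∃ m, d = m + 1 := ⟨d - 1, by have := j.pos; omega⟩
  refine hmin d (Nat.lt_succ_self d) ⟨b ∘ j.succAbove, fun a => ?_⟩
  obtain ⟨n, hn, e, he⟩ := hspan a
  refine ⟨(c j).toNat * n, Nat.mul_pos (by omega) hn,
    fun i => c j * e (j.succAbove i) - e j * c (j.succAbove i), ?_⟩
  have h : ((c j).toNat * n) • a = ∑ i, (c j * e i - e j * c i) • b i := by
    simp only [sub_smul, mul_smul, Finset.sum_sub_distrib, ← Finset.smul_sum, hc, smul_zero,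
      sub_zero, ← he]
    rw [← natCast_zsmul _ (c j).toNat, Int.toNat_of_nonneg hj.le]
  rw [h, Fin.sum_univ_succAbove _ j, show c j * e j - e j * c j = 0 by ring, zero_smul, zero_add]
  rfl

theorem recursionSpec : RecursionSpec := by
  classical
  intro hconj hlim hman hstep hiso Λ hcount hFG hspan
  have := hcount
  obtain ⟨d, ⟨b, hb⟩, hmin⟩ : ∃ d, (∃ b : Fin d → Λ,
      ∀ a : Λ, ∃ n : ℕ, 0 < n ∧ ∃ c : Fin d → ℤ, n • a = ∑ i, c i • b i) ∧
      ∀ d' < d, ¬ ∃ b : Fin d' → Λ,
      ∀ a : Λ, ∃ n : ℕ, 0 < n ∧ ∃ c : Fin d' → ℤ, n • a = ∑ i, c i • b i :=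
    ⟨Nat.find hspan, Nat.find_spec hspan, fun d' hd' => Nat.find_min hspan hd'⟩
  obtain ⟨σ₀, hσ₀⟩ := exists_base Λ d b (indep_of_min b hb hmin) hb
  obtain ⟨en, hen⟩ := exists_surjective_nat Λ
  choose next hnext using fun (p : ℕ) (s : State d Λ) => exists_link hconj hstep hFG p (en p) s
  let s₀ : State d Λ := ⟨σ₀, hσ₀, 1, one_pos, ∅, by simp⟩
  obtain ⟨st, hst₀, hst⟩ : ∃ st : ℕ → State d Λ,
      st 0 = s₀ ∧ ∀ n, Link n (en n) (st n) (st (n + 1)) :=
    ⟨fun n => Nat.rec s₀ next n, rfl, fun n => hnext n _⟩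
  have hbud : ∀ n, (st n).bud ≤ (1 / 2) ^ n := by
    intro n
    induction n with
    | zero => simp [hst₀, s₀]
    | succ n ih =>
      rw [pow_succ]
      linarith [(hst n).bud_le]
  have hEmono : Monotone fun n => (st n).E := monotone_nat_of_le_succ fun n => (hst n).sub
  let F : ℕ → Tor (Ix d) → Λ → UnitAddCircle := fun n => (st n).σ.evs Λ
  have hF : ∀ n p, n ≤ p → (st p).bud ≤ (st n).bud ∧
      Close (st n).E (((st n).bud - (st p).bud) / 2) (F p) (F n) := by
    intro n p hp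
    induction p, hp using Nat.le_induction with
    | base => exact ⟨le_rfl, Close.refl _ (by simp) _⟩
    | succ p hp ih =>
      have h1 := (hst p).bud_le
      have h2 := (st p).bud_pos
      refine ⟨by linarith [ih.1], (((hst p).ev.mono (hEmono hp) le_rfl).trans (by linarith)
        (by linarith [ih.1]) ih.2).mono subset_rfl ?_⟩
      linarith
  choose r hr hrec using fun n => (hst n).recover
  choose S hS using fun n => hconj.1 (Ix d) (st n).σ.H (st n).σ.vec
  obtain ⟨T, hT⟩ := hlim (Ix d) S (fun n => (hS n).2.2)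
    fun n => (hst n).near _ _ (hS (n + 1)) (hS n)
  have hFmeas : ∀ n a, Measurable fun x => F n x a := fun n a => (st n).σ.measurable_ev _
  obtain ⟨μ, Φ, Ψ, hμ, hinv, hΦ, hΨ, hleft, hright, hcomm⟩ := hiso (Ix d) Λ T.map
    (fun n => (S n).map) (fun n => (st n).E) F r T.preserves (fun n => (S n).preserves) hT
    hEmono (fun a => by
      obtain ⟨n, rfl⟩ := hen a
      exact ⟨n + 1, (hst n).mem⟩)
    hFmeas
    (fun n x a ha => (st n).σ.ev_conjRot (hS n) x ((st n).E_mem a ha))
    (fun n a ha b hb _ x => by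
      exact (st n).σ.ev_add x ((st n).E_mem a ha) ((st n).E_mem b hb))
    (fun n χ => by
      obtain ⟨φ, hφ, hφe⟩ := (st n).σ.exists_shift
        (fun u => if h : u ∈ Λ then χ.1 ⟨u, h⟩ else 0) fun u hu v hv => by
          simp only [dif_pos ((st n).inv.le hu), dif_pos ((st n).inv.le hv),
            dif_pos (add_mem ((st n).inv.le hu) ((st n).inv.le hv))]
          exact χ.2 ⟨u, (st n).inv.le hu⟩ ⟨v, (st n).inv.le hv⟩
      have hG : Measurable fun x (a : (st n).E) => F n x a :=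
        measurable_pi_iff.2 fun a => hFmeas n _
      have he : (fun x (a : (st n).E) => F n x a + χ.1 a) =
          (fun x (a : (st n).E) => F n x a) ∘ φ := by
        funext x a
        change F n x a + χ.1 a = (st n).σ.ev (φ x) ((a : Λ) : UnitAddCircle)
        rw [hφe x _ ((st n).E_mem _ a.2), dif_pos (a : Λ).2]
        rfl
      rw [he, ← Measure.map_map hG hφ.measurable, hφ.map_eq])
    (fun n a ha => ((hst n).ev.mClose ha).mono (by linarith [hbud n, (st n).bud_pos]))
    hr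
    (fun N => ⟨N, le_rfl, fun p hp => hrec N (fun x => F p x)
      ((hF (N + 1) p hp).2.mono subset_rfl
        (by linarith [(hF (N + 1) p hp).1, (st p).bud_pos, (st (N + 1)).bud_pos]))⟩)
  obtain ⟨S', hS'1, hS'2, hS'3, hS'4, hS'5⟩ := hman d T
  let e := torHomeo d
  have hef : MeasurePreserving e volume (circVol d) := by
    rw [show (e : Tor (Ix d) → Ix d → Circle) = toCircles from funext torHomeo_apply]
    exact hS'4
  have hes : MeasurePreserving e.symm (circVol d) volume :=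
    MeasurePreserving.symm e.toMeasurableEquiv hef
  refine ⟨d, S', hS'1, hS'2, hS'3, μ, Φ ∘ e.symm, e ∘ Ψ, hμ, hinv, hΦ.comp hes, hef.comp hΨ,
    ?_, ?_, ?_⟩
  · filter_upwards [hes.quasiMeasurePreserving.ae_eq_comp hleft] with z hz
    simp only [Function.comp_apply, id_eq] at hz ⊢
    rw [hz, e.apply_symm_apply]
  · refine EventuallyEq.trans (Eventually.of_forall fun χ => ?_) hright
    simp only [Function.comp_apply, e.symm_apply_apply]
  · refine EventuallyEq.trans (Eventually.of_forall fun z => ?_)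
      (hes.quasiMeasurePreserving.ae_eq_comp hcomm)
    have h := hS'5 (e.symm z)
    rw [← torHomeo_apply, ← torHomeo_apply, e.apply_symm_apply] at h
    simp only [Function.comp_apply, h, e, Homeomorph.symm_apply_apply]

end

end Vale.Agent.P109.Spectral
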