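import Vale.Agent.P109.Spectral.Recursion.Extend

/-!
P109: closeness of the eigenfunctions on finitely many eigenvalues.
-/

namespace Vale.Agent.P109.Spectral

open MeasureTheory

noncomputable section

variable {d : ℕ} {Λ : AddSubgroup UnitAddCircle}

/-- families indexed by eigenvalues, close on `E` outside a small set -/
def Close (E : Finset Λ) (ε : ℝ) (f g : Tor (Ix d) → Λ → UnitAddCircle) : Prop :=
  (volume : Measure (Tor (Ix d))) {x | ∃ a ∈ E, ε < dist (f x a) (g x a)} ≤ ENNReal.ofReal ε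

/-- the eigenfunctions of a stage -/
def Stage.evs (Λ : AddSubgroup UnitAddCircle) (σ : Stage d) :
    Tor (Ix d) → Λ → UnitAddCircle :=
  fun x a => σ.ev x (a : UnitAddCircle)

theorem Close.mono {E E' : Finset Λ} {ε ε' : ℝ} {f g : Tor (Ix d) → Λ → UnitAddCircle}
    (h : Close E' ε f g) (hE : E ⊆ E') (hε : ε ≤ ε') : Close E ε' f g :=
  le_trans (measure_mono fun x (hx : ∃ a ∈ E, ε' < dist (f x a) (g x a)) => by
      obtain ⟨a, ha, hd⟩ := hx
      exact ⟨a, hE ha, hε.trans_lt hd⟩)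
    (le_trans h (ENNReal.ofReal_le_ofReal hε))

theorem Close.refl (E : Finset Λ) {ε : ℝ} (hε : 0 ≤ ε) (f : Tor (Ix d) → Λ → UnitAddCircle) :
    Close E ε f f := by
  refine le_of_eq_of_le (measure_eq_zero_iff_ae_notMem.mpr (Filter.Eventually.of_forall fun x => ?_))
    zero_le
  rintro ⟨a, -, hd⟩
  rw [dist_self] at hd
  exact absurd hd (not_lt.2 hε)

theorem Close.trans {E : Finset Λ} {ε δ : ℝ} (hε : 0 ≤ ε) (hδ : 0 ≤ δ)
    {f g k : Tor (Ix d) → Λ → UnitAddCircle} (h : Close E ε f g) (h' : Close E δ g k) :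
    Close E (ε + δ) f k := by
  refine (measure_mono (t := {x | ∃ a ∈ E, ε < dist (f x a) (g x a)} ∪
    {x | ∃ a ∈ E, δ < dist (g x a) (k x a)}) ?_).trans
    ((measure_union_le _ _).trans ((add_le_add h h').trans_eq (ENNReal.ofReal_add hε hδ).symm))
  rintro x ⟨a, ha, hd⟩
  by_contra hn
  simp only [Set.mem_union, Set.mem_ofPred_eq, not_or, not_exists, not_and, not_lt] at hn
  linarith [dist_triangle (f x a) (g x a) (k x a), hn.1 a ha, hn.2 a ha]

theorem Close.mClose {E : Finset Λ} {ε : ℝ} {f g : Tor (Ix d) → Λ → UnitAddCircle}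
    (h : Close E ε f g) {a : Λ} (ha : a ∈ E) :
    MClose volume ε (fun x => f x a) (fun x => g x a) :=
  le_trans (measure_mono fun x (hd : ε < dist (f x a) (g x a)) =>
    show ∃ b ∈ E, ε < dist (f x b) (g x b) from ⟨a, ha, hd⟩) h

/-- the tolerance on the labels giving a tolerance on finitely many eigenfunctions -/
theorem exists_tol (σ : Stage d) (E : Finset Λ) (hE : ∀ a ∈ E, (a : UnitAddCircle) ∈ σ.grp)
    {η : ℝ} (hη : 0 < η) :
    ∃ ε > 0, ∀ (X : Ext σ) (τ : Stage d), τ.q = X.q → τ.β = X.β →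
      MClose volume ε (fun x => X.pull (τ.lab x)) σ.lab →
      Close E η (τ.evs Λ) (σ.evs Λ) := by
  let w : Λ → ℝ := fun a =>
    ∑ i, |((σ.coef a).1 i : ℝ)| + |((σ.coef a).2 : ℝ)|
  have hw0 : ∀ a, 0 ≤ w a := fun a =>
    add_nonneg (Finset.sum_nonneg fun i _ => abs_nonneg _) (abs_nonneg _)
  set K : ℝ := 1 + ∑ a ∈ E, w a with hKdef
  have hK : 1 ≤ K := le_add_of_nonneg_right (Finset.sum_nonneg fun a _ => hw0 a)
  refine ⟨η / K, by positivity, fun X τ hq hβ hlab => ?_⟩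
  refine le_trans (measure_mono ?_)
    (le_trans hlab (ENNReal.ofReal_le_ofReal (div_le_self hη.le hK)))
  rintro x ⟨a, ha, hd⟩
  by_contra hn
  simp only [Set.mem_ofPred_eq, not_lt] at hn
  have h1 : σ.evs Λ x a = labEval (σ.lab x) (σ.coef a) := rfl
  have h2 : τ.evs Λ x a = labEval (X.pull (τ.lab x)) (σ.coef a) :=
    (X.ev_pull hq hβ x (hE a ha)).2
  rw [h1, h2] at hd
  refine absurd hd (not_lt.2 ((dist_labEval_le _ _ _).trans ?_))
  have hwK : w a ≤ K :=
    (Finset.single_le_sum (fun b _ => hw0 b) ha).trans (le_add_of_nonneg_left zero_le_one)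
  calc w a * dist (X.pull (τ.lab x)) (σ.lab x) ≤ K * (η / K) :=
        mul_le_mul hwK hn dist_nonneg (zero_le_one.trans hK)
    _ = η := mul_div_cancel₀ η (zero_lt_one.trans_le hK).ne'

theorem LiftClose.trans {ι : Type} [Fintype ι] {j : ℕ} {ε δ : ℝ} {a b c : (ι → ℝ) → (ι → ℝ)}
    (ha : ContDiff ℝ (⊤ : ℕ∞) a) (hb : ContDiff ℝ (⊤ : ℕ∞) b) (hc : ContDiff ℝ (⊤ : ℕ∞) c)
    (h : LiftClose j ε a b) (h' : LiftClose j δ b c) : LiftClose j (ε + δ) a c := fun i hi x => by
  rw [show (fun z => a z - c z) = (fun z => a z - b z) + fun z => b z - c z from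
    funext fun z => (sub_add_sub_cancel (a z) (b z) (c z)).symm,
    iteratedFDeriv_add_apply ((ha.sub hb).contDiffAt.of_le (by exact_mod_cast le_top))
      ((hb.sub hc).contDiffAt.of_le (by exact_mod_cast le_top))]
  exact (norm_add_le _ _).trans (add_le_add (h i hi x) (h' i hi x))

theorem DClose.mono {ι : Type} [Fintype ι] {j : ℕ} {ε δ : ℝ} {S T : TD ι} (h : DClose j ε S T)
    (hεδ : ε ≤ δ) : DClose j δ S T :=
  ⟨fun i hi x => (h.1 i hi x).trans hεδ, fun i hi x => (h.2 i hi x).trans hεδ⟩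

theorem DClose.trans {ι : Type} [Fintype ι] {j : ℕ} {ε δ : ℝ} {S T U : TD ι}
    (h : DClose j ε S T) (h' : DClose j δ T U) : DClose j (ε + δ) S U :=
  ⟨h.1.trans S.smooth_f T.smooth_f U.smooth_f h'.1,
    h.2.trans S.smooth_g T.smooth_g U.smooth_g h'.2⟩

end

end Vale.Agent.P109.Spectral
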